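import Vale.Agent.P235.K5.W.H516.Asm
import Vale.Agent.P235.K5.H863.V8M

set_option autoImplicit false

/-!
# P235, K5: Wagner's step (Theorem W), closed

A 3-connected finite graph with a `K_{3,3}` minor and without a `K_5` minor has eight vertices and
no triangle, or three vertices whose removal leaves at least three components.
-/

open SimpleGraph Vale.Agent.P235.H134 Vale.Agent.P235.H56

namespace Vale.Agent.P235.K5.W.H516

variable {V : Type} {G : SimpleGraph V}

theorem card_of_k33 [Finite V] (h : IsMinor K33 G) : 4 ≤ Nat.card V := by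
  obtain ⟨μ, h1, h2, -⟩ := h
  have hne : ∀ a, ∃ v, v ∈ μ a := fun a => by
    obtain ⟨v⟩ := (h1 a).nonempty
    exact ⟨v, v.2⟩
  choose f hf using hne
  have hinj : Function.Injective f := by
    intro a b hab
    by_contra hne
    exact Set.disjoint_left.1 (h2 a b hne) (hf a) (hab ▸ hf b)
  have h3 := Nat.card_le_card_of_injective f hinj
  have h4 : Nat.card (Fin 3 ⊕ Fin 3) = 6 := by
    rw [Nat.card_eq_fintype_card]
    rfl
  omega

/-- **Theorem W.** -/
theorem theoremW [Finite V] (h3 : Conn3 G) (h33 : IsMinor K33 G)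
    (h5 : ¬ IsMinor (⊤ : SimpleGraph (Fin 5)) G) :
    H531.Cut3 G ∨ (Nat.card V = 8 ∧ ∀ x y z, G.Adj x y → G.Adj y z → ¬ G.Adj x z) := by
  rcases asm (H531.conn3_preconnected h3 (card_of_k33 h33)) h5 h33 with h | h
  · exact Or.inl h
  · exact Or.inr (Vale.Agent.P235.K5.H863.v8Model_card h3 h5 h)

end Vale.Agent.P235.K5.W.H516
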