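import Mathlib

set_option autoImplicit false

/-!
# P235, K5, Wagner's step: [W-PURE]

A model of `K_{3,3}` = partition of the vertices into six connected parts, two sides of three parts.
If every model is clean on one side then there is a model which is clean on both sides, or three
vertices whose removal leaves at least three components.
-/

open SimpleGraph

namespace Vale.Agent.P235.K5.W.H516

variable {V : Type*}

/-- A split of a connected set which separates two of its vertices. -/
theorem split_two (G : SimpleGraph V) {X : Set V} (hX : (G.induce X).Preconnected) {a b : V}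
    (ha : a ∈ X) (hb : b ∈ X) (hab : a ≠ b) :
    ∃ P Q : Set V, a ∈ P ∧ b ∈ Q ∧ Disjoint P Q ∧ P ∪ Q = X ∧ (G.induce P).Connected ∧
      (G.induce Q).Connected := by
  classical
  obtain ⟨Q, hQ⟩ : ∃ Q : Set V, Q = {v | Relation.ReflTransGen
      (fun u v => G.Adj u v ∧ v ∈ X ∧ v ≠ a) b v} := ⟨_, rfl⟩
  have hQX : ∀ v ∈ Q, v ∈ X ∧ v ≠ a := by
    intro v hv
    rw [hQ] at hv
    rcases Relation.ReflTransGen.cases_tail hv with h | ⟨c, _, h⟩
    · rw [h]
      exact ⟨hb, hab.symm⟩
    · exact h.2
  have hbQ : b ∈ Q := by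
    rw [hQ]
    exact Relation.ReflTransGen.refl
  have haQ : a ∉ Q := fun h => (hQX a h).2 rfl
  have hstep : ∀ u ∈ Q, ∀ v, G.Adj u v → v ∈ X → v ≠ a → v ∈ Q := by
    intro u hu v huv hv hva
    rw [hQ] at hu ⊢
    exact Relation.ReflTransGen.tail hu ⟨huv, hv, hva⟩
  have hQc : (G.induce Q).Connected := by
    rw [connected_iff_exists_forall_reachable]
    refine ⟨⟨b, hbQ⟩, ?_⟩
    rintro ⟨v, hv⟩
    have hv' : Relation.ReflTransGen (fun u v => G.Adj u v ∧ v ∈ X ∧ v ≠ a) b v := by
      rw [hQ] at hv
      exact hv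
    have key : ∀ v, Relation.ReflTransGen (fun u v => G.Adj u v ∧ v ∈ X ∧ v ≠ a) b v →
        ∀ hv : v ∈ Q, (G.induce Q).Reachable ⟨b, hbQ⟩ ⟨v, hv⟩ := by
      intro v h
      induction h with
      | refl => intro _; exact Reachable.refl _
      | tail h1 h2 ih =>
        rename_i c d
        intro hv
        have hc : c ∈ Q := by
          rw [hQ]
          exact h1
        exact (ih hc).trans (Adj.reachable (G := G.induce Q) (by
          rw [comap_adj]
          exact h2.1))
    exact key v hv' hv
  have hPc : (G.induce (X \ Q)).Connected := by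
    rw [connected_iff_exists_forall_reachable]
    refine ⟨⟨a, ha, haQ⟩, ?_⟩
    have key : ∀ v : X, Relation.ReflTransGen (G.induce X).Adj v ⟨a, ha⟩ →
        ∀ hv : (v : V) ∉ Q, (G.induce (X \ Q)).Reachable ⟨v, v.2, hv⟩ ⟨a, ha, haQ⟩ := by
      intro v h
      induction h using Relation.ReflTransGen.head_induction_on with
      | refl => intro _; exact Reachable.refl _
      | head h1 h2 ih =>
        rename_i v c
        intro hv
        by_cases hva : (v : V) = a
        · have hv2 : (⟨v, v.2, hv⟩ : (X \ Q : Set V)) = ⟨a, ha, haQ⟩ := Subtype.ext hva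
          rw [hv2]
        · have h1' : G.Adj v c := by
            rw [comap_adj] at h1
            exact h1
          have hc : (c : V) ∉ Q := fun hc => hv (hstep c hc v h1'.symm v.2 hva)
          refine Reachable.trans (Adj.reachable (G := G.induce (X \ Q)) (v := ⟨c, c.2, hc⟩) ?_)
            (ih hc)
          rw [comap_adj]
          exact h1'
    rintro ⟨v, hvX, hvQ⟩
    have h := hX ⟨v, hvX⟩ ⟨a, ha⟩
    rw [reachable_iff_reflTransGen] at h
    exact (key ⟨v, hvX⟩ h hvQ).symm
  refine ⟨X \ Q, Q, ⟨ha, haQ⟩, hbQ, Set.disjoint_sdiff_left, ?_, hPc, hQc⟩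
  exact Set.sdiff_union_of_subset fun v hv => (hQX v hv).1

/-- An edge between the two parts of a connected set. -/
theorem cross (G : SimpleGraph V) {P Q : Set V} (h : (G.induce (P ∪ Q)).Preconnected)
    (hP : P.Nonempty) (hQ : Q.Nonempty) (hd : Disjoint P Q) :
    ∃ u ∈ P, ∃ v ∈ Q, G.Adj u v := by
  obtain ⟨p, hp⟩ := hP
  obtain ⟨q, hq⟩ := hQ
  obtain ⟨w⟩ := h ⟨p, Or.inl hp⟩ ⟨q, Or.inr hq⟩
  obtain ⟨d, _, hd1, hd2⟩ := w.exists_boundary_dart {x | (x : V) ∈ P} hp
    (fun h' => Set.disjoint_left.1 hd h' hq)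
  refine ⟨d.fst, hd1, d.snd, ?_, ?_⟩
  · rcases d.snd.2 with h' | h'
    · exact absurd h' hd2
    · exact h'
  · have := d.adj
    rw [comap_adj] at this
    exact this

/-- a model of `K_{3,3}` on the whole vertex set -/
structure Mdl (G : SimpleGraph V) (f : V → Bool × Fin 3) : Prop where
  conn : ∀ p, (G.induce {v | f v = p}).Connected
  adj : ∀ i j, ∃ u v, f u = (true, i) ∧ f v = (false, j) ∧ G.Adj u v

/-- no edge between different parts of the side `s` -/
def Clean (G : SimpleGraph V) (f : V → Bool × Fin 3) (s : Bool) : Prop :=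
  ∀ u v, (f u).1 = s → (f v).1 = s → f u ≠ f v → ¬ G.Adj u v

/-- the two sides exchanged -/
def flip (f : V → Bool × Fin 3) : V → Bool × Fin 3 := fun v => (!(f v).1, (f v).2)

theorem flip_eq (f : V → Bool × Fin 3) (v : V) (s : Bool) (i : Fin 3) :
    flip f v = (s, i) ↔ f v = (!s, i) := by
  rcases h : f v with ⟨t, j⟩
  simp only [flip, h, Prod.mk.injEq]
  cases s <;> cases t <;> simp

theorem Mdl.flip {G : SimpleGraph V} {f : V → Bool × Fin 3} (h : Mdl G f) :
    Mdl G (flip f) := by
  constructor
  · rintro ⟨s, i⟩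
    have e : {v | H516.flip f v = (s, i)} = {v | f v = (!s, i)} := by
      ext v
      exact flip_eq f v s i
    rw [e]
    exact h.conn (!s, i)
  · intro i j
    obtain ⟨u, v, hu, hv, huv⟩ := h.adj j i
    exact ⟨v, u, (flip_eq _ _ _ _).2 hv, (flip_eq _ _ _ _).2 hu, huv.symm⟩

theorem Clean.flip {G : SimpleGraph V} {f : V → Bool × Fin 3} {s : Bool} (h : Clean G f s) :
    Clean G (flip f) (!s) := by
  intro u v hu hv huv
  refine h u v ?_ ?_ ?_
  · simpa [H516.flip] using hu
  · simpa [H516.flip] using hv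
  · intro h'
    apply huv
    simp only [H516.flip, h']

open scoped Classical in
/-- move the set `Q` to the part `(true, x)` -/
noncomputable def mv (f : V → Bool × Fin 3) (Q : Set V) (x : Fin 3) : V → Bool × Fin 3 :=
  fun v => if v ∈ Q then (true, x) else f v

theorem mv_pos {f : V → Bool × Fin 3} {Q : Set V} {x : Fin 3} {v : V} (h : v ∈ Q) :
    mv f Q x v = (true, x) := if_pos h

theorem mv_neg {f : V → Bool × Fin 3} {Q : Set V} {x : Fin 3} {v : V} (h : v ∉ Q) :
    mv f Q x v = f v := if_neg h

/-- `P` touches the part `(true, i)` -/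
def Tch (G : SimpleGraph V) (f : V → Bool × Fin 3) (P : Set V) (i : Fin 3) : Prop :=
  ∃ u ∈ P, ∃ v, f v = (true, i) ∧ G.Adj u v

theorem mv_mdl {G : SimpleGraph V} {f : V → Bool × Fin 3} (h : Mdl G f) {j : Fin 3} {P Q : Set V}
    (hPQ : P ∪ Q = {v | f v = (false, j)}) (hd : Disjoint P Q) (hP : (G.induce P).Connected)
    (hQ : (G.induce Q).Connected) {x : Fin 3} (hx : Tch G f Q x)
    (hy : ∀ y, y ≠ x → Tch G f P y) : Mdl G (mv f Q x) := by
  have hQf : ∀ v ∈ Q, f v = (false, j) := fun v hv => by
    have : v ∈ P ∪ Q := Or.inr hv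
    rw [hPQ] at this
    exact this
  have hPf : ∀ v ∈ P, f v = (false, j) := fun v hv => by
    have : v ∈ P ∪ Q := Or.inl hv
    rw [hPQ] at this
    exact this
  have hPn : P.Nonempty := by
    obtain ⟨v⟩ := hP.nonempty
    exact ⟨v, v.2⟩
  have hQn : Q.Nonempty := by
    obtain ⟨v⟩ := hQ.nonempty
    exact ⟨v, v.2⟩
  have hPQ' : ∀ v ∈ P, v ∉ Q := fun v hv hv' => Set.disjoint_left.1 hd hv hv'
  have hmt : ∀ v i, f v = (true, i) → v ∉ Q := by
    intro v i hv hvQ
    have := hQf v hvQ
    rw [this] at hv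
    simp at hv
  constructor
  · intro p
    by_cases hp : p = (true, x)
    · subst hp
      have e : {v | mv f Q x v = (true, x)} = {v | f v = (true, x)} ∪ Q := by
        ext v
        by_cases hv : v ∈ Q
        · simp [mv_pos hv, hv]
        · simp [mv_neg hv, hv]
      rw [e]
      obtain ⟨u, hu, v, hv, huv⟩ := hx
      exact connected_induce_union (h.conn _).preconnected hQ.preconnected (v := v) (w := u) hv hu
        huv.symm
    · by_cases hp2 : p = (false, j)
      · subst hp2
        have e : {v | mv f Q x v = (false, j)} = P := by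
          ext v
          by_cases hv : v ∈ Q
          · have : v ∉ P := fun h' => hPQ' v h' hv
            simp [mv_pos hv, this]
          · simp only [Set.mem_ofPred_eq, mv_neg hv]
            constructor
            · intro h'
              have : v ∈ P ∪ Q := by
                rw [hPQ]
                exact h'
              exact this.resolve_right hv
            · exact hPf v
        rw [e]
        exact hP
      · have e : {v | mv f Q x v = p} = {v | f v = p} := by
          ext v
          by_cases hv : v ∈ Q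
          · simp only [Set.mem_ofPred_eq, mv_pos hv, hQf v hv]
            constructor
            · intro h'
              exact absurd h'.symm hp
            · intro h'
              exact absurd h'.symm hp2
          · simp only [Set.mem_ofPred_eq, mv_neg hv]
        rw [e]
        exact h.conn p
  · intro i k
    by_cases hk : k = j
    · subst hk
      by_cases hi : i = x
      · subst hi
        obtain ⟨u, hu, v, hv, huv⟩ := cross G (P := P) (Q := Q) (by
          rw [hPQ]
          exact (h.conn _).preconnected) hPn hQn hd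
        exact ⟨v, u, mv_pos hv, by rw [mv_neg (hPQ' u hu)]; exact hPf u hu, huv.symm⟩
      · obtain ⟨u, hu, v, hv, huv⟩ := hy i hi
        exact ⟨v, u, by rw [mv_neg (hmt v i hv)]; exact hv,
          by rw [mv_neg (hPQ' u hu)]; exact hPf u hu, huv.symm⟩
    · obtain ⟨u, v, hu, hv, huv⟩ := h.adj i k
      refine ⟨u, v, by rw [mv_neg (hmt u i hu)]; exact hu, ?_, huv⟩
      have hvQ : v ∉ Q := fun h' => by
        rw [hQf v h'] at hv
        exact hk (by simpa using hv.symm)
      rw [mv_neg hvQ]
      exact hv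

theorem three : ∀ x i k y : Fin 3, y ≠ x → i ≠ k → i ≠ x → k ≠ x → y = i ∨ y = k := by
  decide

/-- the size of the side `false` -/
noncomputable def nB (f : V → Bool × Fin 3) : ℕ := {v | (f v).1 = false}.ncard

theorem nB_mv [Finite V] {f : V → Bool × Fin 3} {Q : Set V} {j x : Fin 3}
    (hQ : ∀ v ∈ Q, f v = (false, j)) (hn : Q.Nonempty) : nB (mv f Q x) < nB f := by
  obtain ⟨q, hq⟩ := hn
  refine Set.ncard_lt_ncard ?_ (Set.toFinite _)
  rw [Set.ssubset_iff_of_subset]
  · refine ⟨q, ?_, ?_⟩
    · simp [hQ q hq]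
    · simp [mv_pos hq]
  · intro v hv
    by_cases hvQ : v ∈ Q
    · simp [mv_pos hvQ] at hv
    · simpa [mv_neg hvQ] using hv

/-- **[W-PURE]** -/
theorem pure_or_cut [Finite V] (G : SimpleGraph V)
    (hD : ∀ f, Mdl G f → Clean G f true ∨ Clean G f false) (hf : ∃ f, Mdl G f) :
    (∃ f, Mdl G f ∧ Clean G f true ∧ Clean G f false) ∨
      ∃ (S : Finset V) (A : Fin 3 → Set V), S.card = 3 ∧ (∀ i, (G.induce (A i)).Connected) ∧
        (∀ i, ∀ v ∈ A i, v ∉ S) ∧ (∀ i j, i ≠ j → Disjoint (A i) (A j)) ∧
        ∀ i, ∀ u ∈ A i, ∀ v, G.Adj u v → v ∉ A i → v ∈ S := by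
  classical
  -- a minimal clean model
  have hf1 : ∃ f, Mdl G f ∧ Clean G f true := by
    obtain ⟨f, hf⟩ := hf
    rcases hD f hf with h | h
    · exact ⟨f, hf, h⟩
    · exact ⟨flip f, hf.flip, h.flip⟩
  obtain ⟨f, hf, hc, hmin⟩ : ∃ f, Mdl G f ∧ Clean G f true ∧
      ∀ g, Mdl G g → Clean G g true → nB f ≤ nB g := by
    have hne : {n | ∃ f, Mdl G f ∧ Clean G f true ∧ nB f = n}.Nonempty := by
      obtain ⟨f, h1, h2⟩ := hf1
      exact ⟨_, f, h1, h2, rfl⟩
    obtain ⟨f, h1, h2, h3⟩ := Nat.sInf_mem hne
    exact ⟨f, h1, h2, fun g hg1 hg2 => h3.le.trans (Nat.sInf_le ⟨g, hg1, hg2, rfl⟩)⟩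
  by_cases hpure : Clean G f false
  · exact Or.inl ⟨f, hf, hc, hpure⟩
  right
  -- every part has at most one vertex which touches the side `true`
  have huniq : ∀ (j : Fin 3) (s t : V), f s = (false, j) → f t = (false, j) →
      (∃ u, (f u).1 = true ∧ G.Adj s u) → (∃ u, (f u).1 = true ∧ G.Adj t u) → s = t := by
    intro j s t hs ht hsu htu
    by_contra hst
    apply hpure
    obtain ⟨P, Q, hsP, htQ, hd, hPQ, hP, hQ⟩ := split_two G (X := {v | f v = (false, j)})
      (hf.conn _).preconnected hs ht hst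
    -- symmetric statement
    have hsome : ∀ {R : Set V} {r : V}, r ∈ R → (∃ u, (f u).1 = true ∧ G.Adj r u) →
        ∃ i, Tch G f R i := by
      rintro R r hr ⟨u, hu, hru⟩
      exact ⟨(f u).2, r, hr, u, Prod.ext hu rfl, hru⟩
    have hall : ∀ i, Tch G f P i ∨ Tch G f Q i := by
      intro i
      obtain ⟨u, v, hu, hv, huv⟩ := hf.adj i j
      have : v ∈ P ∪ Q := by
        rw [hPQ]
        exact hv
      rcases this with h | h
      · exact Or.inl ⟨v, h, u, hu, huv.symm⟩
      · exact Or.inr ⟨v, h, u, hu, huv.symm⟩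
    -- the result of moving `Q`
    have main : ∀ (P Q : Set V), P ∪ Q = {v | f v = (false, j)} → Disjoint P Q →
        (G.induce P).Connected → (G.induce Q).Connected → (∃ i, Tch G f P i) →
        (∃ i, Tch G f Q i) → (∀ i, Tch G f P i ∨ Tch G f Q i) →
        (∃ i k, i ≠ k ∧ Tch G f P i ∧ Tch G f P k) →
        (∃ i k, i ≠ k ∧ Tch G f Q i ∧ Tch G f Q k) ∧
        ∀ u v, u ∉ Q → v ∉ Q → (f u).1 = false → (f v).1 = false → f u ≠ f v → ¬ G.Adj u v := by
      intro P Q hPQ hd hP hQ _ hQ1 hall hP2
      have hQf : ∀ v ∈ Q, f v = (false, j) := fun v hv => by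
        have : v ∈ P ∪ Q := Or.inr hv
        rw [hPQ] at this
        exact this
      have hQn : Q.Nonempty := by
        obtain ⟨v⟩ := hQ.nonempty
        exact ⟨v, v.2⟩
      -- the target
      obtain ⟨x, hx, hy⟩ : ∃ x, Tch G f Q x ∧ ∀ y, y ≠ x → Tch G f P y := by
        by_cases hPa : ∀ y, Tch G f P y
        · obtain ⟨x, hx⟩ := hQ1
          exact ⟨x, hx, fun y _ => hPa y⟩
        · push Not at hPa
          obtain ⟨x, hx⟩ := hPa
          refine ⟨x, (hall x).resolve_left hx, fun y hy => ?_⟩
          obtain ⟨i, k, hik, hi, hk⟩ := hP2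
          have hix : i ≠ x := fun h => hx (h ▸ hi)
          have hkx : k ≠ x := fun h => hx (h ▸ hk)
          have : y = i ∨ y = k := three x i k y hy hik hix hkx
          rcases this with h | h
          · exact h ▸ hi
          · exact h ▸ hk
      have hm : Mdl G (mv f Q x) := mv_mdl hf hPQ hd hP hQ hx hy
      have hlt : nB (mv f Q x) < nB f := nB_mv hQf hQn
      have hnc : ¬ Clean G (mv f Q x) true := fun h => absurd (hmin _ hm h) (not_le.2 hlt)
      have hcf : Clean G (mv f Q x) false := (hD _ hm).resolve_left hnc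
      constructor
      · -- `Q` touches a second part, otherwise the new model is clean
        by_contra hcon
        push Not at hcon
        apply hnc
        intro u v hu hv huv hadj
        by_cases huQ : u ∈ Q
        · by_cases hvQ : v ∈ Q
          · exact huv (by rw [mv_pos huQ, mv_pos hvQ])
          · rw [mv_pos huQ, mv_neg hvQ] at huv
            rw [mv_neg hvQ] at hv
            have hvf : f v = (true, (f v).2) := Prod.ext hv rfl
            refine hcon x (f v).2 ?_ hx ⟨u, huQ, v, hvf, hadj⟩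
            intro h'
            apply huv
            rw [hvf, ← h']
        · by_cases hvQ : v ∈ Q
          · rw [mv_neg huQ, mv_pos hvQ] at huv
            rw [mv_neg huQ] at hu
            have huf : f u = (true, (f u).2) := Prod.ext hu rfl
            refine hcon x (f u).2 ?_ hx ⟨v, hvQ, u, huf, hadj.symm⟩
            intro h'
            apply huv
            rw [huf, ← h']
          · rw [mv_neg huQ] at hu
            rw [mv_neg hvQ] at hv
            rw [mv_neg huQ, mv_neg hvQ] at huv
            exact hc u v hu hv huv hadj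
      · intro u v huQ hvQ hu hv huv
        exact hcf u v (by rw [mv_neg huQ]; exact hu) (by rw [mv_neg hvQ]; exact hv)
          (by rw [mv_neg huQ, mv_neg hvQ]; exact huv)
    have hall' : ∀ i, Tch G f Q i ∨ Tch G f P i := fun i => (hall i).symm
    have hP1 := hsome hsP hsu
    have hQ1 := hsome htQ htu
    have hPQ' : Q ∪ P = {v | f v = (false, j)} := by rw [Set.union_comm, hPQ]
    -- one of the two sides touches two parts
    have h2 : (∃ i k, i ≠ k ∧ Tch G f P i ∧ Tch G f P k) ∨
        (∃ i k, i ≠ k ∧ Tch G f Q i ∧ Tch G f Q k) := by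
      rcases hall 0 with h0 | h0 <;> rcases hall 1 with h1 | h1 <;> rcases hall 2 with h2 | h2
      · exact Or.inl ⟨0, 1, by decide, h0, h1⟩
      · exact Or.inl ⟨0, 1, by decide, h0, h1⟩
      · exact Or.inl ⟨0, 2, by decide, h0, h2⟩
      · exact Or.inr ⟨1, 2, by decide, h1, h2⟩
      · exact Or.inl ⟨1, 2, by decide, h1, h2⟩
      · exact Or.inr ⟨0, 2, by decide, h0, h2⟩
      · exact Or.inr ⟨0, 1, by decide, h0, h1⟩
      · exact Or.inr ⟨0, 1, by decide, h0, h1⟩
    have hboth : (∀ u v, u ∉ Q → v ∉ Q → (f u).1 = false → (f v).1 = false → f u ≠ f v →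
        ¬ G.Adj u v) ∧ (∀ u v, u ∉ P → v ∉ P → (f u).1 = false → (f v).1 = false → f u ≠ f v →
        ¬ G.Adj u v) := by
      rcases h2 with h2 | h2
      · have hA := main P Q hPQ hd hP hQ hP1 hQ1 hall h2
        exact ⟨hA.2, (main Q P hPQ' hd.symm hQ hP hQ1 hP1 hall' hA.1).2⟩
      · have hA := main Q P hPQ' hd.symm hQ hP hQ1 hP1 hall' h2
        exact ⟨(main P Q hPQ hd hP hQ hP1 hQ1 hall hA.1).2, hA.2⟩
    have hmem : ∀ v, v ∈ P ∨ v ∈ Q → f v = (false, j) := fun v hv => by
      have : v ∈ P ∪ Q := hv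
      rw [hPQ] at this
      exact this
    have hnot : ∀ v, v ∈ P → v ∉ Q := fun v h1 h2 => Set.disjoint_left.1 hd h1 h2
    intro u v hu hv huv
    by_cases huQ : u ∈ Q
    · refine hboth.2 u v (fun h => hnot u h huQ) (fun h => ?_) hu hv huv
      exact huv ((hmem u (Or.inr huQ)).trans (hmem v (Or.inl h)).symm)
    · by_cases hvQ : v ∈ Q
      · refine hboth.2 u v (fun h => ?_) (fun h => hnot v h hvQ) hu hv huv
        exact huv ((hmem u (Or.inl h)).trans (hmem v (Or.inr hvQ)).symm)
      · exact hboth.1 u v huQ hvQ hu hv huv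
  -- the three vertices
  choose a b ha hb hab using fun j : Fin 3 => hf.adj 0 j
  have hbinj : Function.Injective b := by
    intro i j hij
    have h1 := hb i
    rw [hij, hb j] at h1
    simpa using h1.symm
  refine ⟨Finset.univ.image b, fun i => {v | f v = (true, i)}, ?_, fun i => hf.conn _, ?_, ?_, ?_⟩
  · rw [Finset.card_image_of_injective _ hbinj]
    rfl
  · intro i v hv hvS
    obtain ⟨j, _, hj⟩ := Finset.mem_image.1 hvS
    rw [← hj] at hv
    have h1 : f (b j) = (true, i) := hv
    rw [hb j] at h1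
    simp at h1
  · intro i j hij
    rw [Set.disjoint_left]
    intro v h1 h2
    have h1' : f v = (true, i) := h1
    have h2' : f v = (true, j) := h2
    rw [h1'] at h2'
    exact hij (by simpa using h2')
  · intro i u hu v huv hv
    have hu' : f u = (true, i) := hu
    have hv' : f v ≠ (true, i) := hv
    rcases hfv : f v with ⟨s, j⟩
    cases s with
    | true =>
      exact absurd huv (hc u v (by rw [hu']) (by rw [hfv]) (by
        rw [hu']
        exact fun h => hv' h.symm))
    | false =>
      have : v = b j := huniq j v (b j) hfv (hb j) ⟨u, by rw [hu'], huv.symm⟩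
        ⟨a j, by rw [ha j], (hab j).symm⟩
      rw [this]
      exact Finset.mem_image_of_mem _ (Finset.mem_univ _)

end Vale.Agent.P235.K5.W.H516
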