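import Vale.Agent.P235.K5.W.H531.Front
import Vale.Agent.P235.K5.W.H246.Touch
import Vale.Agent.P235.K5.W.H262.Tri5
import Vale.Agent.P235.K5.H521.FatFin
import Vale.Agent.P235.K5.H910.Cut3

set_option autoImplicit false

/-!
# P235, K5, Wagner's step: the assembly up to `V_8`

A preconnected finite graph with a `K_{3,3}` minor and without a `K_5` minor has three vertices
whose removal leaves at least three components, or a partition into eight connected parts whose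
quotient contains the Wagner graph.
-/

open SimpleGraph Vale.Agent.P235.H134 Vale.Agent.P235.H56

namespace Vale.Agent.P235.K5.W.H516

open Vale.Agent.P235.K5.W
open Vale.Agent.P235.K5.H521 (V8Model Mod Split Two)

variable {V : Type} {G : SimpleGraph V}

theorem mod_of_pure {A B : Fin 3 → Set V} (h : H531.PureM G A B) : Mod G A B where
  cA := h.cA
  cB := h.cB
  dA := h.dA
  dB := h.dB
  dAB := h.dAB
  cover := h.cov
  touch := h.tch

theorem k5_of_sets (h : ∃ μ : Fin 5 → Set V, (∀ a, (G.induce (μ a)).Connected) ∧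
    (∀ a b, a ≠ b → Disjoint (μ a) (μ b)) ∧
    ∀ a b, a ≠ b → H262.Touch G (μ a) (μ b)) : IsMinor (⊤ : SimpleGraph (Fin 5)) G := by
  obtain ⟨μ, h1, h2, h3⟩ := h
  exact H531.k5_of μ h1 h2 (fun a b hab => h3 a b hab.ne)

/-- the part `X` has a hub for the family `B` -/
def HubAt (G : SimpleGraph V) (X : Set V) (B : Fin 3 → Set V) : Prop :=
  ∃ h ∈ X, ∀ C : Set V, C ⊆ X → h ∉ C → (G.induce C).Connected →
    ∀ j j', H531.Tch G C (B j) → H531.Tch G C (B j') → j = j'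

/-- the part `X` has a fat split for the family `B` -/
def FatAt (G : SimpleGraph V) (X : Set V) (B : Fin 3 → Set V) : Prop :=
  ∃ P Q : Set V, P ∪ Q = X ∧ Disjoint P Q ∧ H531.Con G P ∧ H531.Con G Q ∧
    (∃ i j, i ≠ j ∧ H531.Tch G P (B i) ∧ H531.Tch G P (B j)) ∧
    (∃ i j, i ≠ j ∧ H531.Tch G Q (B i) ∧ H531.Tch G Q (B j))

/-- the part `X` is a triangle for the family `B` -/
def TriAt (G : SimpleGraph V) (X : Set V) (B : Fin 3 → Set V) : Prop :=
  ∃ Y : Fin 3 → Set V, (⋃ i, Y i) = X ∧ (∀ i j, i ≠ j → Disjoint (Y i) (Y j)) ∧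
    (∀ i, H531.Con G (Y i)) ∧ (∀ i j, i ≠ j → H531.Tch G (Y i) (Y j)) ∧
    ∀ i j, H531.Tch G (Y j) (B i) ↔ i = j

theorem trich [Finite V] {X : Set V} (hX : H531.Con G X) (B : Fin 3 → Set V)
    (hB : ∀ i, H531.Tch G X (B i)) (hh : ¬ HubAt G X B) : FatAt G X B ∨ TriAt G X B := by
  rcases H246.trichotomy hX B hB with h | h | h
  · exact Or.inl h
  · exact Or.inr h
  · exact absurd h hh

theorem k5_tt {A B : Fin 3 → Set V} (hM : H531.PureM G A B) {a b : Fin 3}
    (hA : TriAt G (A a) B) (hB : TriAt G (B b) A) : IsMinor (⊤ : SimpleGraph (Fin 5)) G := by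
  obtain ⟨U, hU, dU, cU, tU, eU⟩ := hA
  obtain ⟨W, hW, dW, cW, tW, eW⟩ := hB
  exact k5_of_sets (H262.tri_tri A B hM.cA hM.cB hM.dA hM.dB hM.dAB hM.tch a b U W
    (fun j => by rw [← hU]; exact Set.subset_iUnion U j) cU dU tU hU.ge
    (fun j j' h => ((eU j' j).1 h).symm)
    (fun j => by rw [← hW]; exact Set.subset_iUnion W j) cW dW tW hW.ge
    (fun j j' h => ((eW j' j).1 h).symm))

theorem k5_tf {A B : Fin 3 → Set V} (hM : H531.PureM G A B) {a b : Fin 3}
    (hA : TriAt G (A a) B) (hB : FatAt G (B b) A) : IsMinor (⊤ : SimpleGraph (Fin 5)) G := by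
  obtain ⟨U, hU, dU, cU, tU, eU⟩ := hA
  obtain ⟨P, Q, hPQ, dPQ, cP, cQ, fP, fQ⟩ := hB
  exact k5_of_sets (H262.tri_fat A B hM.cA hM.cB hM.dA hM.dB hM.dAB hM.tch a b U
    (fun j => by rw [← hU]; exact Set.subset_iUnion U j) cU dU tU hU.ge
    (fun j j' h => ((eU j' j).1 h).symm) P Q
    (by rw [← hPQ]; exact Set.subset_union_left) (by rw [← hPQ]; exact Set.subset_union_right)
    hPQ.ge dPQ cP cQ fP fQ)

theorem ff {A B : Fin 3 → Set V} (hM : H531.PureM G A B) {a b : Fin 3}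
    (hA : FatAt G (A a) B) (hB : FatAt G (B b) A) :
    IsMinor (⊤ : SimpleGraph (Fin 5)) G ∨ V8Model G := by
  obtain ⟨C, D, hCD, dCD, cC, cD, fC, fD⟩ := hA
  obtain ⟨P, Q, hPQ, dPQ, cP, cQ, fP, fQ⟩ := hB
  exact H521.fat (mod_of_pure hM) (i := a) (j := b) ⟨hCD.symm, dCD, cC, cD⟩
    ⟨hPQ.symm, dPQ, cP, cQ⟩ fC fD fP fQ

/-- **[ASM]** from a pure model -/
theorem of_pure [Finite V] (h5 : ¬ IsMinor (⊤ : SimpleGraph (Fin 5)) G) {A B : Fin 3 → Set V}
    (hM : H531.PureM G A B) : H531.Cut3 G ∨ V8Model G := by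
  by_cases hA : ∀ i, HubAt G (A i) B
  · exact Or.inl (H910.cut3 A B hM.cov hM.dA hM.dB hM.dAB hM.pA hM.pB hM.cB hA)
  by_cases hB : ∀ j, HubAt G (B j) A
  · exact Or.inl (H910.cut3' A B hM.cov hM.dA hM.dB hM.dAB hM.pA hM.pB hM.cA hB)
  push Not at hA hB
  obtain ⟨a, ha⟩ := hA
  obtain ⟨b, hb⟩ := hB
  right
  rcases trich (hM.cA a) B (fun k => hM.tch a k) ha with ha | ha <;>
    rcases trich (hM.cB b) A (fun k => (hM.tch k b).symm) hb with hb | hb
  · exact (ff hM ha hb).resolve_left h5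
  · exact absurd (k5_tf hM.flip hb ha) h5
  · exact absurd (k5_tf hM ha hb) h5
  · exact absurd (k5_tt hM ha hb) h5

/-- **[ASM]** -/
theorem asm [Finite V] (hG : G.Preconnected) (h5 : ¬ IsMinor (⊤ : SimpleGraph (Fin 5)) G)
    (h33 : IsMinor K33 G) : H531.Cut3 G ∨ V8Model G := by
  rcases H531.front hG h5 h33 with h | ⟨A, B, hM⟩
  · exact Or.inl h
  · exact of_pure h5 hM

end Vale.Agent.P235.K5.W.H516
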