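import Vale.Agent.P235.K5.W.Defs
import Vale.Agent.P235.K5.W.H516.Pure

set_option autoImplicit false

/-!
# P235, K5, Wagner's step: [W-PURE] in the letters of `K5/W/Defs.lean`
-/

open SimpleGraph

namespace Vale.Agent.P235.K5.W.H516

variable {V : Type} {G : SimpleGraph V}

/-- letters: sum to product -/
def tP : Fin 3 ⊕ Fin 3 → Bool × Fin 3 := Sum.elim (fun i => (true, i)) (fun j => (false, j))

/-- letters: product to sum -/
def tS : Bool × Fin 3 → Fin 3 ⊕ Fin 3 := fun p => if p.1 then Sum.inl p.2 else Sum.inr p.2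

theorem tP_eq (a : Fin 3 ⊕ Fin 3) (p : Bool × Fin 3) : tP a = p ↔ a = tS p := by
  revert a p
  decide

theorem tS_eq (p : Bool × Fin 3) (a : Fin 3 ⊕ Fin 3) : tS p = a ↔ p = tP a := by
  revert a p
  decide

theorem toMdl {f : V → Fin 3 ⊕ Fin 3} (h : M33 G f) : H516.Mdl G (tP ∘ f) := by
  constructor
  · intro p
    have e : {v | (tP ∘ f) v = p} = {v | f v = tS p} := by
      ext v
      exact tP_eq _ _
    rw [e]
    exact h.1 _
  · intro i j
    obtain ⟨u, v, hu, hv, huv⟩ := h.2 i j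
    exact ⟨u, v, (tP_eq _ _).2 hu, (tP_eq _ _).2 hv, huv⟩

theorem toM33 {f : V → Bool × Fin 3} (h : H516.Mdl G f) : M33 G (tS ∘ f) := by
  constructor
  · intro a
    have e : {v | (tS ∘ f) v = a} = {v | f v = tP a} := by
      ext v
      exact tS_eq _ _
    rw [e]
    exact h.conn _
  · intro i j
    obtain ⟨u, v, hu, hv, huv⟩ := h.adj i j
    exact ⟨u, v, (tS_eq _ _).2 hu, (tS_eq _ _).2 hv, huv⟩

theorem clean_of_clA {f : V → Bool × Fin 3} (h : ClA G (tS ∘ f)) : Clean G f true := by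
  intro u v hu hv huv hadj
  have h1 : f u = (true, (f u).2) := Prod.ext hu rfl
  have h2 : f v = (true, (f v).2) := Prod.ext hv rfl
  refine h (f u).2 (f v).2 (fun h' => huv ?_) ⟨u, v, (tS_eq _ _).2 h1, (tS_eq _ _).2 h2, hadj⟩
  rw [h1, h2, h']

theorem clean_of_clB {f : V → Bool × Fin 3} (h : ClB G (tS ∘ f)) : Clean G f false := by
  intro u v hu hv huv hadj
  have h1 : f u = (false, (f u).2) := Prod.ext hu rfl
  have h2 : f v = (false, (f v).2) := Prod.ext hv rfl
  refine h (f u).2 (f v).2 (fun h' => huv ?_) ⟨u, v, (tS_eq _ _).2 h1, (tS_eq _ _).2 h2, hadj⟩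
  rw [h1, h2, h']

theorem clA_of_clean {f : V → Bool × Fin 3} (h : Clean G f true) : ClA G (tS ∘ f) := by
  rintro i i' hi ⟨u, v, hu, hv, huv⟩
  have h1 : f u = (true, i) := (tS_eq _ _).1 hu
  have h2 : f v = (true, i') := (tS_eq _ _).1 hv
  refine h u v (by rw [h1]) (by rw [h2]) ?_ huv
  rw [h1, h2]
  intro h'
  exact hi (by simpa using h')

theorem clB_of_clean {f : V → Bool × Fin 3} (h : Clean G f false) : ClB G (tS ∘ f) := by
  rintro i i' hi ⟨u, v, hu, hv, huv⟩
  have h1 : f u = (false, i) := (tS_eq _ _).1 hu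
  have h2 : f v = (false, i') := (tS_eq _ _).1 hv
  refine h u v (by rw [h1]) (by rw [h2]) ?_ huv
  rw [h1, h2]
  intro h'
  exact hi (by simpa using h')

/-- **[W-PURE]** in the letters of `W/Defs.lean`. -/
theorem pureStmt (hD : DichStmt) : PureStmt := by
  intro V _ G f hf h5
  rcases pure_or_cut G (fun g hg => (hD V G _ (toM33 hg) h5).imp clean_of_clA clean_of_clB)
    ⟨_, toMdl hf⟩ with ⟨g, hg, h1, h2⟩ | ⟨S, A, hS, hA, hAS, hd, hcl⟩
  · exact Or.inl ⟨tS ∘ g, toM33 hg, clA_of_clean h1, clB_of_clean h2⟩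
  · right
    classical
    let e := (Finset.equivFinOfCardEq hS).symm
    refine ⟨fun i => (e i : V), A, ?_, ?_, ?_, hd, ?_⟩
    · intro i j hij
      exact e.injective (Subtype.ext hij)
    · intro i
      obtain ⟨v⟩ := (hA i).nonempty
      exact ⟨v, v.2⟩
    · intro i j h
      exact hAS i _ h (e j).2
    · intro i u hu v huv
      by_cases hv : v ∈ A i
      · exact Or.inl hv
      · right
        refine ⟨e.symm ⟨v, hcl i u hu v huv hv⟩, ?_⟩
        show v = ((e (e.symm ⟨v, hcl i u hu v huv hv⟩) : S) : V)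
        rw [Equiv.apply_symm_apply]

end Vale.Agent.P235.K5.W.H516
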